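import Vale.Agent.P330.H798.Dec1
import Vale.Agent.P330.H551.BDefs
import Vale.Agent.P330.Q.DecOut

/-!
# Decoder, outer level, for a network of blocks

`contr_of_facts`: the contraction property from `BFacts`.
`decode_block`: the blocks of the exact word, from the bits of the registers `x z l`.
-/

namespace Vale.Agent.P330.H798

open Finset PCP.AR
open H551 (BSpec BInst BReg BConst)
open H797 (fr BSys BFacts)
open S (IsB)

theorem pr_eq_fr {Om : Type} [Fintype Om] (P : Om → Prop) : pr P = fr P := by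
  classical
  unfold pr fr
  congr 1
  rw [Finset.card_filter]
  push_cast
  exact Finset.sum_congr rfl fun ω _ => by congr

theorem contr_of_facts {Cf Om Bl : Type} {K : ℕ} [Fintype Om] {B : BSys Cf Om Bl K}
    {κ : ℝ → ℝ} {θ ρ₁ c₀ : ℝ} (F : BFacts B κ θ ρ₁ c₀) (w : Cf) :
    Contr (fun i h => B.wr i h) B.eta (B.word w) ρ₁ c₀ := by
  classical
  intro P hP
  rw [pr_eq_fr] at hP
  rcases isEmpty_or_nonempty Om with h0 | h0
  · have : ∀ Q : Om → Prop, pr Q = 0 := by
      intro Q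
      unfold pr
      simp
    rw [this, this, mul_zero]
  have hc : (0 : ℝ) < Fintype.card Om := by exact_mod_cast Fintype.card_pos
  have hA : ((univ.filter P).card : ℝ) ≤ ρ₁ * Fintype.card Om := by
    unfold fr at hP
    rw [div_le_iff₀ hc] at hP
    convert hP
  obtain ⟨A', hA', hA2⟩ := F.contract (univ.filter P) hA
  rw [pr_eq_fr, pr_eq_fr]
  unfold fr
  rw [← mul_div_assoc, div_le_div_iff_of_pos_right hc]
  have h1 : (univ.filter fun h => ∃ X : Fin K → Option Bl,
      (∀ i, ¬ P (B.wr i h) → X i = some (B.word w (B.wr i h))) ∧ B.eta h X ≠ B.word w h) ⊆ A' := by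
    intro h hh
    rw [Finset.mem_filter] at hh
    obtain ⟨-, X, hX, hne⟩ := hh
    by_contra hc
    exact hne (hA2 h hc w X fun i hi => hX i fun hp => hi (by simpa using hp))
  have h2 : ((univ.filter fun h => ∃ X : Fin K → Option Bl,
      (∀ i, ¬ P (B.wr i h) → X i = some (B.word w (B.wr i h))) ∧ B.eta h X ≠ B.word w h).card : ℝ)
      ≤ A'.card := by exact_mod_cast Finset.card_le_card h1
  convert h2.trans hA'

variable {N : BSpec}

/-- The bits of the block stream at the outer site `h`. -/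
noncomputable def bitsAt (I : BInst N) (x : BReg N → I.Site → ℝ) (z : Bool) (h : I.Om) :
    N.L → I.P × I.Z → Bool := fun l ω => decide (1 / 2 < x (.x z l) (h, ω))

/-- An inner decoder. -/
def InnOk (I : BInst N) (ρin : ℝ) (inn : (N.L → I.P × I.Z → Bool) → Option I.Bl) : Prop :=
  ∀ (s : I.Bl) (b : N.L → I.P × I.Z → Bool),
    pr (fun ω : I.P × I.Z => ∃ l, b l ω ≠ I.enc s l ω.1) ≤ ρin → inn b = some s

theorem InnOk.of_clean {I : BInst N} {ρin : ℝ} {inn : (N.L → I.P × I.Z → Bool) → Option I.Bl}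
    (hI : InnOk I ρin inn) {ε : ℝ} (hε : ε < 1 / 2) {s : I.Bl} {u : N.L → I.P × I.Z → ℝ}
    (h : I.Clean ε ρin s u) : inn (fun l ω => decide (1 / 2 < u l ω)) = some s := by
  refine hI s _ (le_trans (pr_mono fun ω hω => ?_) h)
  obtain ⟨l, hl⟩ := hω
  exact ⟨l, fun h1 => hl (IsB.half hε h1)⟩

/-- The first word of blocks is near the word of the configuration. -/
theorem pr_first_le (I : BInst N) {ε ρin ρ₀ : ℝ} (hε : ε < 1 / 2)
    {inn : (N.L → I.P × I.Z → Bool) → Option I.Bl} (hI : InnOk I ρin inn)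
    {x : BReg N → I.Site → ℝ} {z : Bool} {w : I.Cf} (hN : I.Near ε ρin ρ₀ x z w) :
    pr (fun h => inn (bitsAt I x z h) ≠ some (I.sys.word w h)) ≤ ρ₀ := by
  refine le_trans (pr_mono fun h hh => ?_) hN
  intro hc
  exact hh (hI.of_clean hε hc)

/-- **The decoder finds the exact word of blocks.** -/
theorem decode_block {β : Type*} (I : BInst N) {κ : ℝ → ℝ} {θ ρ₁ c₀ ε ρin ρ₀ : ℝ}
    (F : BFacts I.sys κ θ ρ₁ c₀)
    (hc0 : 0 ≤ c₀) (hc1 : c₀ ≤ 1) (hε : ε < 1 / 2) (hρ : ρ₀ ≤ ρ₁)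
    {inn : (N.L → I.P × I.Z → Bool) → Option I.Bl} (hI : InnOk I ρin inn)
    {NO : ℕ} (eO : I.Om ≃ Fin NO) (code : I.Bl → β)
    {wrN : Fin N.k → ℕ → ℕ} {etaN : ℕ → List (Option β) → β}
    (hwr : ∀ (i : Fin N.k) (h : I.Om), wrN i (eO h) = eO (I.sys.wr i h))
    (heta : ∀ (h : I.Om) (v : Fin N.k → Option I.Bl),
      etaN (eO h) (List.ofFn fun i => (v i).map code) = code (I.sys.eta h v))
    {x : BReg N → I.Site → ℝ} {z : Bool} {w : I.Cf} (hN : I.Near ε ρin ρ₀ x z w)
    {X0 : ℕ → Option β} (hX : ∀ h, X0 (eO h) = (inn (bitsAt I x z h)).map code)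
    {s : ℕ} (hs : c₀ ^ s ≤ 1 / 2) (h : I.Om) :
    (blksN NO (s * NO) wrN etaN X0).getD (eO h) none = some (code (I.sys.word w h)) :=
  blksN_getD (wr := fun i h => I.sys.wr i h) eO code hwr heta hX (contr_of_facts F w) hc0 hc1
    ((pr_first_le I hε hI hN).trans hρ) hs h

end Vale.Agent.P330.H798
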