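import Vale.Agent.Lib.PCP.AR.Blr
import Vale.Agent.Lib.PolyTime.Lists2

/-!
# Decoder, outer level: iterated correction of a word of blocks

* `Contr`: the contraction property of one round of correction (field `eta_ok` of `BInst.Facts`).
* `iterate_eq`: iterating the round from any word of blocks near the word of a configuration gives
  exactly this word.
* `rndN`, `blksN`: the same on numbers and lists; `blksN_eq`, `PT_blksN`.
-/

namespace Vale.Agent.P330.H798

open Finset PCP.AR Vale.Agent.Lib.PolyTime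

section abs

variable {Om Bl ι : Type*} [Fintype Om]

/-- One round of correction. -/
def rnd (wr : ι → Om → Om) (eta : Om → (ι → Option Bl) → Bl) (X : Om → Option Bl) :
    Om → Option Bl := fun h => some (eta h fun i => X (wr i h))

/-- One round of correction decreases the number of the errors by the factor `c`. -/
def Contr (wr : ι → Om → Om) (eta : Om → (ι → Option Bl) → Bl) (word : Om → Bl) (ρ c : ℝ) : Prop :=
  ∀ B : Om → Prop, pr B ≤ ρ → pr (fun h => ∃ X : ι → Option Bl,
    (∀ i, ¬ B (wr i h) → X i = some (word (wr i h))) ∧ eta h X ≠ word h) ≤ c * pr B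

variable {wr : ι → Om → Om} {eta : Om → (ι → Option Bl) → Bl} {word : Om → Bl} {ρ c : ℝ}

theorem pr_rnd_le (hC : Contr wr eta word ρ c) {X : Om → Option Bl}
    (hX : pr (fun h => X h ≠ some (word h)) ≤ ρ) :
    pr (fun h => rnd wr eta X h ≠ some (word h)) ≤ c * pr (fun h => X h ≠ some (word h)) := by
  refine le_trans (pr_mono fun h hh => ?_) (hC _ hX)
  refine ⟨fun i => X (wr i h), fun i hi => not_not.1 hi, fun he => hh ?_⟩
  unfold rnd
  rw [he]

theorem pr_iterate_le (hC : Contr wr eta word ρ c) (hc0 : 0 ≤ c) (hc1 : c ≤ 1)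
    {X : Om → Option Bl} (hX : pr (fun h => X h ≠ some (word h)) ≤ ρ) (n : ℕ) :
    pr (fun h => (rnd wr eta)^[n] X h ≠ some (word h)) ≤
      c ^ n * pr (fun h => X h ≠ some (word h)) := by
  induction n with
  | zero => simp
  | succ n ih =>
    rw [Function.iterate_succ_apply']
    have h0 := pr_nonneg (fun h => X h ≠ some (word h))
    have h1 : pr (fun h => (rnd wr eta)^[n] X h ≠ some (word h)) ≤ ρ := by
      refine le_trans ih (le_trans ?_ hX)
      have h2 : c ^ n ≤ 1 := pow_le_one₀ hc0 hc1
      have h3 : 0 ≤ c ^ n := pow_nonneg hc0 n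
      nlinarith
    refine le_trans (pr_rnd_le hC h1) ?_
    rw [pow_succ, mul_comm (c ^ n) c, mul_assoc]
    exact mul_le_mul_of_nonneg_left ih hc0

theorem not_of_pr_lt {p : Om → Prop} (h : pr p * Fintype.card Om < 1) (x : Om) : ¬ p x := by
  classical
  intro hx
  have hP : (0 : ℝ) < Fintype.card Om := by exact_mod_cast Fintype.card_pos_iff.2 ⟨x⟩
  have h0 : PCP.AR.pr p = ((univ.filter p).card : ℝ) / Fintype.card Om := by
    unfold PCP.AR.pr
    congr 1
    rw [Finset.card_filter]
    push_cast
    exact Finset.sum_congr rfl fun ω _ => by congr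
  rw [h0, div_mul_cancel₀ _ hP.ne'] at h
  have h1 : 1 ≤ (univ.filter p).card := Finset.card_pos.2 ⟨x, by simpa using hx⟩
  have h2 : (1 : ℝ) ≤ (univ.filter p).card := by exact_mod_cast h1
  linarith

/-- **Exact decoding.** -/
theorem iterate_eq (hC : Contr wr eta word ρ c) (hc0 : 0 ≤ c) (hc1 : c ≤ 1)
    {X : Om → Option Bl} (hX : pr (fun h => X h ≠ some (word h)) ≤ ρ) {n : ℕ}
    (hn : c ^ n * Fintype.card Om < 1) :
    (rnd wr eta)^[n] X = fun h => some (word h) := by
  funext x
  by_contra hne
  refine not_of_pr_lt (p := fun h => (rnd wr eta)^[n] X h ≠ some (word h)) ?_ x hne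
  refine lt_of_le_of_lt ?_ hn
  refine mul_le_mul_of_nonneg_right ?_ (Nat.cast_nonneg _)
  refine le_trans (pr_iterate_le hC hc0 hc1 hX n) ?_
  have h2 : 0 ≤ c ^ n := pow_nonneg hc0 n
  have : Nonempty Om := ⟨x⟩
  have h3 := pr_le_one (fun h => X h ≠ some (word h))
  nlinarith

/-- The number of rounds `s * NO` is enough. -/
theorem pow_mul_lt_one (hc0 : 0 ≤ c) {s : ℕ} (hs : c ^ s ≤ 1 / 2) (NO : ℕ) :
    c ^ (s * NO) * (NO : ℝ) < 1 := by
  rw [pow_mul]
  have h1 : (c ^ s) ^ NO ≤ (1 / 2) ^ NO := pow_le_pow_left₀ (pow_nonneg hc0 s) hs NO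
  have h2 : (NO : ℝ) < 2 ^ NO := by exact_mod_cast Nat.lt_two_pow_self
  have h3 : (0 : ℝ) < 2 ^ NO := by positivity
  calc (c ^ s) ^ NO * (NO : ℝ) ≤ (1 / 2) ^ NO * NO :=
        mul_le_mul_of_nonneg_right h1 (Nat.cast_nonneg _)
    _ = NO / 2 ^ NO := by rw [div_pow, one_pow]; ring
    _ < 1 := by rw [div_lt_one h3]; exact h2

theorem exists_rounds (hc1 : c < 1) : ∃ s : ℕ, c ^ s ≤ 1 / 2 := by
  obtain ⟨s, hs⟩ := exists_pow_lt_of_lt_one (show (0 : ℝ) < 1 / 2 by norm_num) hc1
  exact ⟨s, hs.le⟩

end abs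

/-! ### On numbers -/

section num

variable {β : Type*} {K : ℕ}

/-- One round of correction, on numbers. -/
def rndN (NO : ℕ) (wrN : Fin K → ℕ → ℕ) (etaN : ℕ → List (Option β) → β) (X : List (Option β)) :
    List (Option β) :=
  (List.range NO).map fun h => some (etaN h (List.ofFn fun i => X.getD (wrN i h) none))

/-- The corrected word of blocks after `n` rounds; `X0 h` is the first block at the site `h`. -/
def blksN (NO n : ℕ) (wrN : Fin K → ℕ → ℕ) (etaN : ℕ → List (Option β) → β)
    (X0 : ℕ → Option β) : List (Option β) :=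
  (rndN NO wrN etaN)^[n] ((List.range NO).map X0)

variable {Om Bl : Type*} [Fintype Om] {NO : ℕ} (eO : Om ≃ Fin NO)

/-- a word as a list -/
def lst (X : Om → Option β) : List (Option β) := List.ofFn fun i => X (eO.symm i)

omit [Fintype Om] in
theorem lst_getD (X : Om → Option β) (h : Om) : (lst eO X).getD (eO h : ℕ) none = X h := by
  unfold lst
  rw [List.getD_eq_getElem?_getD, List.getElem?_ofFn]
  simp

omit [Fintype Om] in
theorem map_range_eq_lst {f : ℕ → Option β} {X : Om → Option β} (h : ∀ x, f (eO x) = X x) :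
    (List.range NO).map f = lst eO X := by
  unfold lst
  rw [List.ofFn_eq_map, ← List.map_coe_finRange_eq_range (n := NO), List.map_map]
  refine List.map_congr_left fun i _ => ?_
  simp only [Function.comp]
  rw [← h, eO.apply_symm_apply]

variable {wr : Fin K → Om → Om} {eta : Om → (Fin K → Option Bl) → Bl}
  {wrN : Fin K → ℕ → ℕ} {etaN : ℕ → List (Option β) → β} (code : Bl → β)

omit [Fintype Om] in
theorem rndN_eq (hwr : ∀ (i : Fin K) (h : Om), wrN i (eO h) = eO (wr i h))
    (heta : ∀ (h : Om) (v : Fin K → Option Bl),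
      etaN (eO h) (List.ofFn fun i => (v i).map code) = code (eta h v))
    (X : Om → Option Bl) :
    rndN NO wrN etaN (lst eO fun h => (X h).map code) =
      lst eO fun h => (rnd wr eta X h).map code := by
  unfold rndN
  refine map_range_eq_lst eO fun h => ?_
  unfold rnd
  rw [Option.map_some, ← heta]
  congr 3
  funext i
  rw [hwr, lst_getD]

omit [Fintype Om] in
theorem blksN_eq (hwr : ∀ (i : Fin K) (h : Om), wrN i (eO h) = eO (wr i h))
    (heta : ∀ (h : Om) (v : Fin K → Option Bl),
      etaN (eO h) (List.ofFn fun i => (v i).map code) = code (eta h v))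
    {X0 : ℕ → Option β} {X : Om → Option Bl} (hX : ∀ h, X0 (eO h) = (X h).map code) (n : ℕ) :
    blksN NO n wrN etaN X0 = lst eO fun h => ((rnd wr eta)^[n] X h).map code := by
  unfold blksN
  rw [map_range_eq_lst eO hX]
  clear hX
  induction n generalizing X with
  | zero => rfl
  | succ n ih =>
    rw [Function.iterate_succ_apply, Function.iterate_succ_apply, rndN_eq eO code hwr heta, ih]

/-- **The decoder finds the exact word of blocks.** -/
theorem blksN_getD {word : Om → Bl} {ρ c : ℝ}
    (hwr : ∀ (i : Fin K) (h : Om), wrN i (eO h) = eO (wr i h))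
    (heta : ∀ (h : Om) (v : Fin K → Option Bl),
      etaN (eO h) (List.ofFn fun i => (v i).map code) = code (eta h v))
    {X0 : ℕ → Option β} {X : Om → Option Bl} (hX : ∀ h, X0 (eO h) = (X h).map code)
    (hC : Contr wr eta word ρ c) (hc0 : 0 ≤ c) (hc1 : c ≤ 1)
    (hnear : pr (fun h => X h ≠ some (word h)) ≤ ρ) {s : ℕ} (hs : c ^ s ≤ 1 / 2) (h : Om) :
    (blksN NO (s * NO) wrN etaN X0).getD (eO h) none = some (code (word h)) := by
  rw [blksN_eq eO code hwr heta hX, iterate_eq hC hc0 hc1 hnear (n := s * NO), lst_getD]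
  · rfl
  · rw [Fintype.card_congr eO, Fintype.card_fin]
    exact pow_mul_lt_one hc0 hs NO

/-- The decoder finds the exact word of blocks, as a list. -/
theorem blksN_list {word : Om → Bl} {ρ c : ℝ}
    (hwr : ∀ (i : Fin K) (h : Om), wrN i (eO h) = eO (wr i h))
    (heta : ∀ (h : Om) (v : Fin K → Option Bl),
      etaN (eO h) (List.ofFn fun i => (v i).map code) = code (eta h v))
    {X0 : ℕ → Option β} {X : Om → Option Bl} (hX : ∀ h, X0 (eO h) = (X h).map code)
    (hC : Contr wr eta word ρ c) (hc0 : 0 ≤ c) (hc1 : c ≤ 1)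
    (hnear : pr (fun h => X h ≠ some (word h)) ≤ ρ) {s : ℕ} (hs : c ^ s ≤ 1 / 2) :
    blksN NO (s * NO) wrN etaN X0 = List.ofFn fun j => some (code (word (eO.symm j))) := by
  rw [blksN_eq eO code hwr heta hX, iterate_eq hC hc0 hc1 hnear (n := s * NO)]
  · rfl
  · rw [Fintype.card_congr eO, Fintype.card_fin]
    exact pow_mul_lt_one hc0 hs NO

end num

/-! ### Polynomial time -/

section PT

variable {A : Set Word} {α β : Type*} [Enc α] [Enc β] {K : ℕ}

theorem esize_some (b : β) : esize (some b) = esize b + 1 := by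
  unfold esize
  rw [enc_some, List.length_cons]

/-- Lists of a fixed length. -/
theorem PT_ofFn {f : α → Fin K → β} (h : ∀ i, PT A (fun a => f a i)) :
    PT A (fun a => List.ofFn (f a)) := by
  induction K with
  | zero => exact (PT.const []).congr fun a => by simp
  | succ K ih =>
    refine (PT.cons (h 0) (ih (f := fun a i => f a i.succ) fun i => h i.succ)).congr fun a => ?_
    rw [List.ofFn_succ]

theorem PT_rndN {NO : α → ℕ} {wrN : α → Fin K → ℕ → ℕ} {etaN : α → ℕ → List (Option β) → β}
    {X : α → List (Option β)} (hO : PT A NO) (hOb : PBd NO)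
    (hwr : ∀ i, PT A (fun q : α × ℕ => wrN q.1 i q.2))
    (heta : PT A (fun q : α × ℕ × List (Option β) => etaN q.1 q.2.1 q.2.2)) (hX : PT A X) :
    PT A (fun a => rndN (NO a) (wrN a) (etaN a) (X a)) := by
  unfold rndN
  refine PT.map (f := fun a h => some (etaN a h (List.ofFn fun i : Fin K =>
    (X a).getD (wrN a i h) none))) (PT.range hO hOb) ?_
  refine PT.some (heta.comp (PT.fst'.pair (PT.snd'.pair ?_)))
  refine PT_ofFn (f := fun (q : α × ℕ) (i : Fin K) => (X q.1).getD (wrN q.1 i q.2) none)
    fun i => ?_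
  exact PT.getD (hX.comp PT.fst') (hwr i) (PT.const none)

/-- **The corrected word of blocks is computed in polynomial time.** -/
theorem PT_blksN {NO n : α → ℕ} {wrN : α → Fin K → ℕ → ℕ} {etaN : α → ℕ → List (Option β) → β}
    {X0 : α → ℕ → Option β} (hO : PT A NO) (hOb : PBd NO) (hn : PT A n) (hnb : PBd n)
    (hwr : ∀ i, PT A (fun q : α × ℕ => wrN q.1 i q.2))
    (heta : PT A (fun q : α × ℕ × List (Option β) => etaN q.1 q.2.1 q.2.2))
    (hX : PT A (fun q : α × ℕ => X0 q.1 q.2)) {B : α → ℕ} (hB : PBd B)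
    (hBd : ∀ a h v, esize (etaN a h v) ≤ B a) :
    PT A (fun a => blksN (NO a) (n a) (wrN a) (etaN a) (X0 a)) := by
  have h0 : PT A (fun a => (List.range (NO a)).map (X0 a)) :=
    PT.map (f := fun a h => X0 a h) (PT.range hO hOb) hX
  unfold blksN
  refine PT.iterate' hn hnb h0 (step := fun a l => rndN (NO a) (wrN a) (etaN a) l)
    (PT_rndN (α := α × List (Option β)) (wrN := fun q => wrN q.1) (etaN := fun q => etaN q.1)
      (hO.comp PT.fst') (hOb.comp (A := A) PT.fst')
      (fun i => (hwr i).comp (PT.fst'.fst.pair PT.snd')) (heta.comp (PT.fst'.fst.pair PT.snd'))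
      PT.snd')
    (b := fun a => esize ((List.range (NO a)).map (X0 a)) + NO a * (2 * (B a + 1) + 1))
    (h0.pbd.add (hOb.mul (((PBd.const 2).mul (hB.add (PBd.const 1))).add (PBd.const 1))))
    fun a j _ => ?_
  cases j with
  | zero => exact Nat.le_add_right _ _
  | succ j =>
    rw [Function.iterate_succ_apply']
    refine le_trans ?_ (Nat.le_add_left _ _)
    refine (esize_list_le (B := B a + 1) fun x hx => ?_).trans ?_
    · generalize (rndN (NO a) (wrN a) (etaN a))^[j] ((List.range (NO a)).map (X0 a)) = l at hx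
      unfold rndN at hx
      obtain ⟨h, -, rfl⟩ := List.mem_map.1 hx
      rw [esize_some]
      have := hBd a h (List.ofFn fun i => l.getD (wrN a i h) none)
      omega
    · unfold rndN
      rw [List.length_map, List.length_range]

end PT

end Vale.Agent.P330.H798
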