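import Vale.Agent.P330.Q.DecFin
import Vale.Agent.P330.H798.Dec1

/-!
# Inner decoder

A stream that is right at almost all inner sites gives the exact table (`Q.Dec.tabN`: iterated
correction by the majority over the pads of corrected reads); the bits of the word are parities of
bits of the exact table (`cellBit`).

* `cellBit_code`: the contents of an array of bits, from its code.
* `innW`: the inner decoder on numbers; `innW_eq`: it is right; `PT_innW`.
-/

namespace Vale.Agent.P330.H798

open Finset PCP.AR Vale.Agent.Lib.PolyTime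
open Vale.Agent.P330.Q (ESys Cube Addr mon dualS)
open Vale.Agent.P330.Q.Dec (tabN Samp cubD selD selD_iff cellBit sum_cubD b_of_decide PT_cellBit
  tabN_correct PT_tabN)
open S (parity parity_eq)

section cell

variable {F : Type*} [Field F] [CharP F 2] {h : ℕ} [NeZero h] {Y : Type*} [AddCommGroup Y]
  {k : ℕ}

/-- The entry of an array of bits, from the bits `φ (γ * code)` of its code at the points of the
cube. -/
theorem cellBit_code (D : ESys F h Y) (hk : 2 * k ≤ h) (φ : F →+ ZMod 2) {γ : F}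
    (hγ : φ γ = 1) (f : Addr k → Bool) {an : ℕ} {a : Addr k}
    (ha : a = fun i : Fin k => an.testBit (i : ℕ)) {pos : ℕ → ℕ} {tab : List Bool}
    (hpos : ∀ n < 2 ^ h, tab.getD (pos n) false =
      decide (φ (γ * D.code (fun a => if f a then 1 else 0) (D.ι (cubD h n))) = 1)) :
    cellBit h k pos tab an = f a := by
  classical
  unfold cellBit
  rw [parity_eq]
  have h1 := D.rd1_code hk (fun a => if f a then (1 : F) else 0) a
  unfold ESys.rd1 at h1
  have h2 : (∑ b : Cube h, if ∀ i ∈ dualS h (univ : Finset (Fin 1)) (fun _ => a), b i = 1 then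
      φ (γ * D.code (fun a => if f a then 1 else 0) (D.ι b)) else 0) =
      if f a then 1 else 0 := by
    have h3 : ∀ b : Cube h, (if ∀ i ∈ dualS h (univ : Finset (Fin 1)) (fun _ => a), b i = 1 then
        φ (γ * D.code (fun a => if f a then 1 else 0) (D.ι b)) else 0) =
        φ (γ * (mon F (dualS h (univ : Finset (Fin 1)) (fun _ => a)) b *
          D.code (fun a => if f a then 1 else 0) (D.ι b))) := by
      intro b
      rw [Q.mon_eq]
      split_ifs with h1
      · simp
      · simp
    rw [Finset.sum_congr rfl fun b _ => h3 b, ← map_sum, ← Finset.mul_sum, h1]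
    split_ifs with h4
    · rw [mul_one, hγ]
    · rw [mul_zero, map_zero]
  rw [sum_cubD] at h2
  have h3 : (∑ n ∈ Finset.range (2 ^ h), (if (selD h k an n && tab.getD (pos n) false) = true
      then (1 : ZMod 2) else 0)) = if f a then 1 else 0 := by
    rw [← h2]
    refine Finset.sum_congr rfl fun n hn => ?_
    rw [hpos n (Finset.mem_range.1 hn), ha]
    by_cases h3 : selD h k an n = true
    · rw [if_pos ((selD_iff hk an n).1 h3), h3, Bool.true_and, b_of_decide]
    · rw [if_neg (fun h4 => h3 ((selD_iff hk an n).2 h4))]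
      have h5 : selD h k an n = false := by simpa using h3
      rw [h5, Bool.false_and]
      simp
  rw [h3]
  cases f a <;> simp

end cell

/-! ### The decoder -/

variable {κ : Type*}

/-- The inner decoder: `b p z` the bit of the stream at the inner site with numbers `p`, `z`; `n`
rounds of correction with the reads `rd` and the function `dF`; `pos i` the number of the point of
the table that belongs to the point number `i` of the cube; `m` the length of the word, `ad j` the
number of the address of the letter `j`. -/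
def innW (NP NZ n : ℕ) (rd : κ → ℕ → ℕ → ℕ) (dF : (κ → Bool) → Bool) (h k m : ℕ)
    (pos ad : ℕ → ℕ) (b : ℕ → ℕ → Bool) : List Bool :=
  (List.range m).map fun j => cellBit h k pos (tabN NP NZ n rd dF b) (ad j)

theorem length_innW {NP NZ n : ℕ} {rd : κ → ℕ → ℕ → ℕ} {dF : (κ → Bool) → Bool} {h k m : ℕ}
    {pos ad : ℕ → ℕ} {b : ℕ → ℕ → Bool} :
    (innW NP NZ n rd dF h k m pos ad b).length = m := by
  unfold innW
  rw [List.length_map, List.length_range]

/-- **The inner decoder is right.** `c` is the table of the word `s`. -/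
theorem innW_eq {P Z : Type*} [Fintype P] [Fintype Z] [Nonempty P] [Nonempty Z] {NP NZ : ℕ}
    (eP : P ≃ Fin NP) (eZ : Z ≃ Fin NZ) {rd : κ → P → Z → P} {rdN : κ → ℕ → ℕ → ℕ}
    (hrd : ∀ i p z, rdN i (eP p) (eZ z) = eP (rd i p z)) {dF : (κ → Bool) → Bool} {ρ : ℝ}
    (hS : Samp rd ρ) (hρ : ρ < 1) {c : P → Bool} (hd : ∀ p z, dF (fun i => c (rd i p z)) = c p)
    {F : Type*} [Field F] [CharP F 2] {h : ℕ} [NeZero h] {Y : Type*} [AddCommGroup Y] {k : ℕ}
    (D : ESys F h Y) (hk : 2 * k ≤ h) (φ : F →+ ZMod 2) {γ : F} (hγ : φ γ = 1) {m : ℕ}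
    (s : Fin m → Bool) {f : Addr k → Bool} {ad : ℕ → ℕ}
    (hf : ∀ j : Fin m, f (fun i : Fin k => (ad j).testBit (i : ℕ)) = s j)
    {pos : ℕ → ℕ} (hpos : ∀ i < 2 ^ h, ∃ p : P, (eP p : ℕ) = pos i ∧
      c p = decide (φ (γ * D.code (fun a => if f a then 1 else 0) (D.ι (cubD h i))) = 1))
    {b : P → Z → Bool} {bN : ℕ → ℕ → Bool} (hb : ∀ p z, bN (eP p) (eZ z) = b p z)
    (hnear : 2 * pr (fun ω : P × Z => b ω.1 ω.2 ≠ c ω.1) ≤ ρ) {n : ℕ} (hn : NP ≤ 2 ^ n) :
    innW NP NZ n rdN dF h k m pos ad bN = List.ofFn s := by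
  unfold innW
  rw [List.ofFn_eq_map, ← List.map_coe_finRange_eq_range (n := m), List.map_map]
  refine List.map_congr_left fun j _ => ?_
  simp only [Function.comp]
  rw [← hf j]
  refine cellBit_code D hk φ hγ f rfl fun i hi => ?_
  obtain ⟨p, hp, hc⟩ := hpos i hi
  rw [← hc, ← hp]
  exact tabN_correct eP eZ hS dF hd hρ hrd hb hnear hn p

section PT

variable {A : Set Word} {α : Type} [Enc α] [Fintype κ]

/-- **The inner decoder runs in polynomial time.** -/
theorem PT_innW {NP NZ n h k m : α → ℕ} {rd : α → κ → ℕ → ℕ → ℕ} {dF : (κ → Bool) → Bool}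
    {pos ad : α → ℕ → ℕ} {b : α → ℕ → ℕ → Bool} (hP : PT A NP) (hPb : PBd NP) (hZ : PT A NZ)
    (hZb : PBd NZ) (hn : PT A n) (hnb : PBd n) (hh : PT A h) (hhb : PBd fun x => 2 ^ h x)
    (hk : PT A k) (hkb : PBd k) (hm : PT A m) (hmb : PBd m)
    (hrd : ∀ i, PT A (fun q : (α × ℕ) × ℕ => rd q.1.1 i q.1.2 q.2))
    (hpos : PT A (fun q : α × ℕ => pos q.1 q.2)) (had : PT A (fun q : α × ℕ => ad q.1 q.2))
    (hb : PT A (fun q : (α × ℕ) × ℕ => b q.1.1 q.1.2 q.2)) :
    PT A (fun a => innW (NP a) (NZ a) (n a) (rd a) dF (h a) (k a) (m a) (pos a) (ad a) (b a)) := by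
  unfold innW
  refine PT.map (f := fun a j => cellBit (h a) (k a) (pos a)
    (tabN (NP a) (NZ a) (n a) (rd a) dF (b a)) (ad a j)) (PT.range hm hmb) ?_
  exact PT_cellBit (α := α × ℕ) (pos := fun q => pos q.1) (hh.comp PT.fst')
    (hhb.comp (A := A) PT.fst') (hk.comp PT.fst') (hkb.comp (A := A) PT.fst') had
    (hpos.comp (PT.fst'.fst.pair PT.snd'))
    ((PT_tabN hP hPb hZ hZb hn hnb hrd hb).comp PT.fst')

end PT

end Vale.Agent.P330.H798
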