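import Vale.Agent.P330.H972.FNum
import Vale.Agent.P330.FM.E3End
import Vale.Agent.P330.FM.SoundF
import Vale.Agent.P330.Q.DecPos
import Vale.Agent.P330.H798.Dec4

/-!
# The inner decoder of the concrete functional systems

`posX`: the numbers of the points used by the decoder.  `rdX`: the reads of the decoder on numbers.
`innX`: the inner decoder of the stream `l = 1` of the code of a block.
`decX`: the field `Dec` of the family of modules of the concrete functional systems.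
-/

namespace Vale.Agent.P330.H798

open Finset PCP.AR Vale.Agent.Lib.PolyTime
open Vale.Agent.P330.Q Vale.Agent.P330.FM Vale.Agent.P330.FM.TM Vale.Agent.P330.H972
open Vale.Agent.P330.H800 (Tab)
open Vale.Agent.P330.H475 (Wd wd toWd FData)
open Vale.Agent.P330.Q.Dec (Samp cubD cubD_eq_cub)

/-! ### Points and reads -/

section gen

variable {nC B mm : ℕ} {C : XC nC B mm} {S : XSpec} {α : Type} [Enc α] (U : XFam C S α)

/-- The point of the table at the point number `i` of the cube. -/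
noncomputable def ptX (a : α) (i : ℕ) : (U.sk a).P :=
  ((0, iotaY C.K (C.h (U.k a)) (cub (C.h (U.k a)) i)), (U.nm a).cE.symm ⟨0, (U.nm a).Qc_pos⟩)

/-- The number of the point of the table at the point number `i` of the cube. -/
noncomputable def posX (a : α) (i : ℕ) : ℕ :=
  (iotaN C.K (C.h (U.k a)) 0 * cY C.K (C.h (U.k a)) + iotaN C.K (C.h (U.k a)) i) * (U.nm a).Qc

theorem eP_ptX (a : α) (i : ℕ) : ((U.nm a).eP (ptX U a i) : ℕ) = posX U a i := by
  have h1 := (U.nm a).eP_val (ptX U a i)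
  have h2 : (((U.nm a).eY (ptX U a i).1 : Fin _) : ℕ) =
      iotaN C.K (C.h (U.k a)) 0 * cY C.K (C.h (U.k a)) + iotaN C.K (C.h (U.k a)) i := by
    show ((eYY C.K (C.h (U.k a)) (0, iotaY C.K (C.h (U.k a)) (cub (C.h (U.k a)) i)) : Fin _) : ℕ)
      = _
    rw [eYY_val, numZ_iota, numZ_zero]
  have h3 : (((U.nm a).cE (ptX U a i).2 : Fin _) : ℕ) = 0 := by
    show (((U.nm a).cE ((U.nm a).cE.symm ⟨0, (U.nm a).Qc_pos⟩) : Fin _) : ℕ) = 0
    rw [Equiv.apply_symm_apply]
  rw [h1, h2, h3, add_zero]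
  rfl

theorem strB_ptX (a : α) (x : Addr (U.k a) → C.K) (i : ℕ) :
    U.strB a x 1 (ptX U a i) = decide (C.φ (1 * (C.sys (U.k a)).code x
      ((C.sys (U.k a)).ι (cubD (C.h (U.k a)) i))) = 1) := by
  have h1 : (C.sys (U.k a)).ι (cubD (C.h (U.k a)) i) = U.py2 a (ptX U a i) := by
    unfold XC.sys
    rw [ysys_ι]
    rfl
  rw [h1]
  rfl

/-- The reads of the decoder on numbers. -/
noncomputable def rdX (a : α) (u : DU C) (i j : ℕ) : ℕ :=
  (prN U.nm (fun a s => (U.nm a).rdN (dRaw C S u) s) (a, i, j)).1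

theorem rdX_eq (a : α) (u : DU C) (p : (U.sk a).P) (z : (U.sk a).Z) :
    rdX U a u ((U.nm a).eP p) ((U.nm a).eZ z) =
      (U.nm a).eP ((U.sk a).rd (dRaw C S u) (p, z)).1 := by
  unfold rdX
  rw [rdP_eq U.nm_ok]

theorem PT_rdX (u : DU C) : PT ∅ fun q : (α × ℕ) × ℕ => rdX U q.1.1 u q.1.2 q.2 :=
  PT.fst (PT.comp (PT_rdP U.nm_pt (dRaw C S u))
    ((PT.fst'.fst).pair ((PT.fst'.snd).pair PT.snd')))

theorem PT_posX : PT ∅ fun q : α × ℕ => posX U q.1 q.2 := by
  have hh : PT ∅ fun q : α × ℕ => C.h (U.k q.1) := U.xd.PT_h.comp PT.fst'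
  have hhb : PBd fun q : α × ℕ => C.h (U.k q.1) := U.xd.PB_h'.comp (PT.fst' (A := ∅))
  exact PT.mul (PT.add (PT.mul (PT.iotaN C.K hh hhb (PT.const 0)) (PT.cY C.K hh hhb))
    (PT.iotaN C.K hh hhb PT.snd')) (U.nm_pt.Qc.comp PT.fst')

/-! ### The decoder -/

/-- The bit `1` of a stream. -/
def hdX (T : List (List (List Bool))) (i j : ℕ) : Bool := ((T.getD i []).getD j []).headD false

theorem PT_hdX : PT ∅ fun q : (List (List (List Bool)) × ℕ) × ℕ => hdX q.1.1 q.1.2 q.2 :=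
  PT.headD (PT.getD (PT.getD PT.fst'.fst PT.fst'.snd (PT.const [])) PT.snd' (PT.const []))
    (PT.const false)

/-- **The inner decoder** for words of length `m`. -/
noncomputable def innX (m : α → ℕ) (q : α × List (List (List Bool))) : Word :=
  innW (U.nm q.1).NP (U.nm q.1).NZ (U.nm q.1).NP (rdX U q.1) (dXor C) (C.h (U.k q.1)) (U.k q.1)
    (m q.1) (posX U q.1) (fun j => j) (hdX q.2)

theorem PT_innX {m : α → ℕ} (hm : PT ∅ m) (hb : PBd m) : PT ∅ (innX U m) := by
  have h1 : ∀ u, PT ∅ fun q : ((α × List (List (List Bool))) × ℕ) × ℕ =>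
      rdX U q.1.1.1 u q.1.2 q.2 := fun u =>
    PT.comp (g := fun q : (α × ℕ) × ℕ => rdX U q.1.1 u q.1.2 q.2)
      (f := fun q : ((α × List (List (List Bool))) × ℕ) × ℕ => ((q.1.1.1, q.1.2), q.2))
      (PT_rdX U u) ((PT.fst'.fst.fst.pair PT.fst'.snd).pair PT.snd')
  have h2 : PT ∅ fun q : (α × List (List (List Bool))) × ℕ => posX U q.1.1 q.2 :=
    PT.comp (g := fun q : α × ℕ => posX U q.1 q.2)
      (f := fun q : (α × List (List (List Bool))) × ℕ => (q.1.1, q.2)) (PT_posX U)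
      (PT.fst'.fst.pair PT.snd')
  have h3 : PT ∅ fun q : ((α × List (List (List Bool))) × ℕ) × ℕ => hdX q.1.1.2 q.1.2 q.2 :=
    PT.comp (g := fun q : (List (List (List Bool)) × ℕ) × ℕ => hdX q.1.1 q.1.2 q.2)
      (f := fun q : ((α × List (List (List Bool))) × ℕ) × ℕ => ((q.1.1.2, q.1.2), q.2)) PT_hdX
      ((PT.fst'.fst.snd.pair PT.fst'.snd).pair PT.snd')
  have h4 : PBd fun q : α × List (List (List Bool)) => U.k q.1 :=
    (U.PB_k.mono fun _ => Nat.lt_two_pow_self.le).comp (PT.fst' (A := ∅))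
  have h5 : PT ∅ fun q : α × List (List (List Bool)) => (U.nm q.1).NP := U.nm_pt.NP.comp PT.fst'
  have h6 : PBd fun q : α × List (List (List Bool)) => (U.nm q.1).NP :=
    U.nm_pt.NPb.comp (PT.fst' (A := ∅))
  have h7 : PT ∅ fun q : α × List (List (List Bool)) => (U.nm q.1).NZ := U.nm_pt.NZ.comp PT.fst'
  have h8 : PBd fun q : α × List (List (List Bool)) => (U.nm q.1).NZ :=
    U.nm_pt.NZb.comp (PT.fst' (A := ∅))
  have h9 : PT ∅ fun q : α × List (List (List Bool)) => C.h (U.k q.1) := U.xd.PT_h.comp PT.fst'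
  have h10 : PBd fun q : α × List (List (List Bool)) => 2 ^ C.h (U.k q.1) :=
    U.xd.PB_h.comp (PT.fst' (A := ∅))
  have h11 : PT ∅ fun q : α × List (List (List Bool)) => U.k q.1 := U.PT_k.comp PT.fst'
  have h12 : PT ∅ fun q : α × List (List (List Bool)) => m q.1 := hm.comp PT.fst'
  have h13 : PBd fun q : α × List (List (List Bool)) => m q.1 := hb.comp (PT.fst' (A := ∅))
  exact PT_innW (A := ∅) (α := α × List (List (List Bool))) (κ := DU C)
    (NP := fun q => (U.nm q.1).NP) (NZ := fun q => (U.nm q.1).NZ)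
    (n := fun q => (U.nm q.1).NP) (h := fun q => C.h (U.k q.1)) (k := fun q => U.k q.1)
    (m := fun q => m q.1) (rd := fun q => rdX U q.1) (dF := dXor C)
    (pos := fun q => posX U q.1) (ad := fun _ j => j) (b := fun q => hdX q.2)
    h5 h6 h7 h8 h5 h6 h9 h10 h11 h4 h12 h13 h1 h2 PT.snd' h3

/-- **The inner decoder is right**: the stream `1` is near the code of the bits `f`. -/
theorem innX_eqU (hC : Fintype.card S.Cell = nC) (m : α → ℕ) (a : α) (s : Fin (m a) → Bool)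
    {f : Addr (U.k a) → Bool}
    (hf : ∀ j : Fin (m a), f (fun i : Fin (U.k a) => (j : ℕ).testBit (i : ℕ)) = s j)
    {ρ : ℝ} (hρ : 2 * ρ ≤ ρX C S) {L : List (List (List Bool))}
    {b : (U.sk a).P → (U.sk a).Z → Bool}
    (hb : ∀ p z, hdX L ((U.nm a).eP p) ((U.nm a).eZ z) = b p z)
    (hT : pr (fun ω : (U.sk a).P × (U.sk a).Z =>
      b ω.1 ω.2 ≠ U.strB a (fun y => if f y = true then 1 else 0) 1 ω.1) ≤ ρ) :
    innX U m (a, L) = List.ofFn s := by
  have i1 : Nonempty (U.sk a).P := ⟨(0, fun _ => 0)⟩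
  have i2 : Nonempty (U.sk a).Z :=
    ⟨(fun _ => 0, fun _ _ _ => 0, fun _ => Classical.arbitrary _)⟩
  have h1 : Samp (fun u p z => ((U.sk a).rd (dRaw C S u) (p, z)).1) (ρX C S) :=
    fun B' hB => str_samp U a hC B' hB
  exact innW_eq (U.nm a).eP (U.nm a).eZ (rdX_eq U a) h1 (ρX_lt C)
    (c := fun p => U.strB a (fun y => if f y = true then 1 else 0) 1 p)
    (fun p z => str_read U a _ 1 (p, z)) (C.sys (U.k a)) (C.le_h' (one_le_B U.σ) _) C.φ
    C.φ_one s hf (fun i _ => ⟨ptX U a i, eP_ptX U a i, strB_ptX U a _ i⟩) hb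
    (le_trans (mul_le_mul_of_nonneg_left hT (by norm_num)) hρ) Nat.lt_two_pow_self.le

end gen

section conc

variable {kk mm : ℕ} {τ : Tab kk} (C : XC (nCm τ) (nBm τ) mm) (c : ℕ) {α : Type} [Enc α]
  {m : α → ℕ} (hm : PT ∅ m) (hb : PBd m)

/-- The bits of a block, `1` first. -/
noncomputable def lstX : List C.K := 1 :: (univ : Finset C.K).toList

theorem mem_lstX (l : C.K) : l ∈ lstX C :=
  List.mem_cons_of_mem _ (Finset.mem_toList.2 (mem_univ l))

/-- The number of the letter `j` as an address. -/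
theorem extB_symm_adr {k n : ℕ} (b : Fin n → Bool) (j : Fin n) (hj : (j : ℕ) < 2 ^ k) :
    extB b ((epsZ k).symm (fun i : Fin k => (j : ℕ).testBit (i : ℕ))) = b j := by
  show extB b ((epsZ k).symm (adr k j)) = b j
  have h1 : ((epsZ k).symm (adr k (j : ℕ))).val = (j : ℕ) := by
    rw [epsZ_symm_adr, val_ptZ, Nat.mod_eq_of_lt hj]
  have h2 : ((epsZ k).symm (adr k (j : ℕ))).val < n := by
    rw [h1]
    exact j.2
  rw [extB_of_lt b h2]
  congr 1
  exact Fin.ext h1

/-- **The inner decoder is right**: the stream `l = 1` is near the code of `s`. -/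
theorem innX_eq {NP NZ : ℕ} (a : α) (hP : NP = ((mfam C c hm hb).nm a).NP)
    (hZ : NZ = ((mfam C c hm hb).nm a).NZ)
    (eP : ((mfam C c hm hb).sk a).P ≃ Fin NP) (eZ : ((mfam C c hm hb).sk a).Z ≃ Fin NZ)
    (hP' : ∀ p, (eP p : ℕ) = ((mfam C c hm hb).nm a).eP p)
    (hZ' : ∀ z, (eZ z : ℕ) = ((mfam C c hm hb).nm a).eZ z)
    (s : Wd (m a)) {ρ : ℝ} (hρ : 2 * ρ ≤ ρX C (spec τ))
    (T : ((mfam C c hm hb).sk a).P × ((mfam C c hm hb).sk a).Z → C.K → Bool)
    (hT : pr (fun ω : ((mfam C c hm hb).sk a).P × ((mfam C c hm hb).sk a).Z =>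
      ∃ l, T ω l ≠ encB C c hm hb a s l ω.1) ≤ ρ) :
    innX (mfam C c hm hb) m (a, List.ofFn fun i => List.ofFn fun j =>
      (lstX C).map (T (eP.symm i, eZ.symm j))) = wd s := by
  subst hP hZ
  obtain rfl : eP = ((mfam C c hm hb).nm a).eP := Equiv.ext fun p => Fin.ext (hP' p)
  obtain rfl : eZ = ((mfam C c hm hb).nm a).eZ := Equiv.ext fun z => Fin.ext (hZ' z)
  refine innX_eqU (mfam C c hm hb) rfl m a s (f := fun x => extB s ((epsZ _).symm x))
    (fun j => extB_symm_adr s j ?_) hρ (b := fun p z => T (p, z) 1) ?_ ?_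
  · refine lt_of_lt_of_le j.2 (le_trans (m_le_aOf c (m a)) ?_)
    exact Nat.pow_le_pow_right (by norm_num) (by show aOf c (m a) ≤ 2 * aOf c (m a); omega)
  · intro p z
    unfold hdX
    simp [lstX]
  · exact le_trans (pr_mono fun ω hω => ⟨1, hω⟩) hT

end conc

/-- **The decoder of the family of modules of the concrete functional systems**, for all numbers
`U` with the values of `FN.eP`, `FN.eZ`. -/
noncomputable def decX {K mm : ℕ} {τ : Tab (K + 2)} {C : XC (nCm τ) (nBm τ) mm} (d : FDefs C)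
    (c : ℕ) {α : Type} [Enc α] {m : α → ℕ} (hm : PT ∅ m) (hb : PBd m) (q : CConst) (τv : ℚ)
    (own : Fin K)
    (U : (fdatF (fspec d) (Equiv.refl (Fin (K + 2))) q τv own (finst d c hm hb)
      fun a => Equiv.refl (Wd (m a))).Nums)
    (hP : ∀ a p, (U.eP a p : ℕ) = FN.eP d c hm hb a p)
    (hZ : ∀ a z, (U.eZ a z : ℕ) = FN.eZ d c hm hb a z) {ρ : ℝ}
    (hρ : 2 * ρ ≤ ρX C (spec τ)) :
    (fdatF (fspec d) (Equiv.refl (Fin (K + 2))) q τv own (finst d c hm hb)
      fun a => Equiv.refl (Wd (m a))).Dec U ρ where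
  lst := lstX C
  mem_lst := mem_lstX C
  dec := innX (mfam C c hm hb) m
  dec_pt := PT_innX _ hm hb
  dec_eq a s T hT := by
    have h1 : U.nP a = ((mfam C c hm hb).nm a).NP := by
      have h2 := Fintype.card_congr ((U.eP a).symm.trans (FN.eP d c hm hb a))
      rw [Fintype.card_fin, Fintype.card_fin] at h2
      exact h2
    have h3 : U.nZ a = ((mfam C c hm hb).nm a).NZ := by
      have h2 := Fintype.card_congr ((U.eZ a).symm.trans (FN.eZ d c hm hb a))
      rw [Fintype.card_fin, Fintype.card_fin] at h2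
      exact h2
    exact innX_eq C c hm hb a h1 h3 (U.eP a) (U.eZ a) (hP a) (hZ a) s hρ T hT

end Vale.Agent.P330.H798
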