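import Vale.Agent.P330.FM.FuncAsm
import Vale.Agent.P330.H798.InnX

/-!
# FUNC

`decStmt`: the inner decoder of the concrete family of modules.  `funcStmt`: **FUNC**.
-/

namespace Vale.Agent.P330.H798

open Vale.Agent.P330.FM Vale.Agent.P330.H972 Vale.Agent.P330.FM.TM
open Vale.Agent.P330.H475 (FuncStmt)

/-- **The inner decoder.** -/
theorem decStmt : DecStmt := by
  intro K mm τ C c α _ m hm hb _
  refine ⟨ρX C (spec τ) / 2, half_pos (ρX_pos C), fun q τv own ρ _ hρ => ⟨?_⟩⟩
  exact decX (defsM C) c hm hb q τv own (numsC (defsM C) c hm hb q τv own) (fun _ _ => rfl)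
    (fun _ _ => rfl) (by linarith)

/-- **FUNC**: families of modules for polynomial time site functions. -/
theorem funcStmt : FuncStmt := funcStmt_of decStmt

end Vale.Agent.P330.H798
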